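import Vale.Agent.P042.R2.H757.Spec

set_option autoImplicit false

/-! Row ALL of P042.MultiplicativeStatistics. -/

namespace Vale.Agent.P042.H757

open Finset

/-- a number with prime factors in `P0` has a bounded complement to a `k`-th power -/
theorem exists_compl {k : ℕ} (hk : 0 < k) (P0 : Finset ℕ) (m : ℕ) (hm : 1 ≤ m)
    (hP : ∀ p : ℕ, p.Prime → p ∣ m → p ∈ P0) (hP0 : ∀ p ∈ P0, 1 ≤ p) :
    ∃ D w : ℕ, 1 ≤ D ∧ 1 ≤ w ∧ D ≤ ∏ p ∈ P0, p ^ k ∧ m * D = w ^ k := by
  classical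
  have hm' : m = ∏ p ∈ P0, p ^ m.factorization p := by
    conv_lhs => rw [← Nat.prod_factorization_pow_eq_self (Nat.one_le_iff_ne_zero.1 hm)]
    refine Finsupp.prod_of_support_subset _ ?_ _ ?_
    · intro p hp
      rw [Nat.support_factorization] at hp
      exact hP p (Nat.prime_of_mem_primeFactors hp) (Nat.dvd_of_mem_primeFactors hp)
    · intro p _
      simp
  refine ⟨∏ p ∈ P0, p ^ (k - m.factorization p % k), ∏ p ∈ P0, p ^ (m.factorization p / k + 1),
    ?_, ?_, ?_, ?_⟩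
  · exact Nat.one_le_iff_ne_zero.2 (Finset.prod_ne_zero_iff.2 fun p hp =>
      pow_ne_zero _ (Nat.one_le_iff_ne_zero.1 (hP0 p hp)))
  · exact Nat.one_le_iff_ne_zero.2 (Finset.prod_ne_zero_iff.2 fun p hp =>
      pow_ne_zero _ (Nat.one_le_iff_ne_zero.1 (hP0 p hp)))
  · exact Finset.prod_le_prod' fun p hp => Nat.pow_le_pow_right (hP0 p hp) (Nat.sub_le _ _)
  · have h0 : m * ∏ p ∈ P0, p ^ (k - m.factorization p % k) =
        (∏ p ∈ P0, p ^ m.factorization p) * ∏ p ∈ P0, p ^ (k - m.factorization p % k) := by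
      rw [← hm']
    rw [h0, ← Finset.prod_mul_distrib, ← Finset.prod_pow]
    refine Finset.prod_congr rfl fun p _ => ?_
    rw [← pow_add, ← pow_mul]
    congr 1
    have h1 := Nat.div_add_mod (m.factorization p) k
    have h2 := Nat.mod_lt (m.factorization p) hk
    have h3 : (m.factorization p / k + 1) * k = k * (m.factorization p / k) + k := by ring
    omega

theorem rowAll (h : StPair) : StAll := by
  classical
  intro a k ha hk r col hcol
  have hfin : {p : ℕ | p.Prime ∧ Few col (col p)}.Finite := by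
    refine Set.Finite.subset (Set.finite_iUnion
      (f := fun v : Fin r => {p : ℕ | p.Prime ∧ col p = v ∧ Few col v}) ?_) ?_
    · intro v
      by_cases hv : Few col v
      · exact Set.Finite.subset hv fun p hp => ⟨hp.1, hp.2.1⟩
      · simp [hv]
    · intro p hp
      exact Set.mem_iUnion.2 ⟨col p, hp.1, rfl, hp.2⟩
  have hfin1 : {p : ℕ | p.Prime ∧ ∀ q : ℕ, q.Prime → col q = col p → p ≤ q}.Finite := by
    refine Set.Finite.of_injOn (f := col) (t := Set.univ) (fun _ _ => Set.mem_univ _) ?_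
      Set.finite_univ
    intro p hp q hq hpq
    exact le_antisymm (hp.2 q hq.1 hpq.symm) (hq.2 p hp.1 hpq)
  set P0 : Finset ℕ := (hfin.union hfin1).toFinset with hP0
  have hP0' : ∀ p ∈ P0, 1 ≤ p := by
    intro p hp
    rw [hP0, Set.Finite.mem_toFinset] at hp
    rcases hp with hp | hp
    · exact hp.1.one_lt.le
    · exact hp.1.one_lt.le
  set D0 : ℕ := ∏ p ∈ P0, p ^ k with hD0
  have hY : ∀ v : Fin r, ∃ Y : ℕ, ¬ Few col v → ∀ D : ℕ, 1 ≤ D → D ≤ D0 →
      ∃ p q m : ℕ, p.Prime ∧ q.Prime ∧ col p = v ∧ col q = v ∧ 1 ≤ m ∧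
        q = p + a * D * m ^ k ∧ q ≤ Y := by
    intro v
    by_cases hv : Few col v
    · exact ⟨0, fun h => absurd hv h⟩
    · have hr : Rich col v := (hcol v).resolve_left hv
      obtain ⟨N0, hN0⟩ := h a k ha hk r col v hr (1 / 2) (by norm_num) (by norm_num)
      refine ⟨max N0 ((a * D0) ^ 2), fun _ D h1 h2 => ?_⟩
      obtain ⟨p, q, m, hp, hq, cp, cq, -, -, hm, e, hle⟩ :=
        hN0 (max N0 ((a * D0) ^ 2)) (le_max_left _ _) 1 D le_rfl h1 (by
          have h3 : (1 : ℝ) - 1 / 2 = 1 / 2 := by norm_num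
          rw [h3, ← Real.sqrt_eq_rpow]
          refine Real.le_sqrt_of_sq_le ?_
          have h4 : (a * 1 * D) ^ 2 ≤ max N0 ((a * D0) ^ 2) := by
            refine le_trans ?_ (le_max_right _ _)
            rw [mul_one]
            exact Nat.pow_le_pow_left (Nat.mul_le_mul_left a h2) 2
          exact_mod_cast h4)
      exact ⟨p, q, m, hp, hq, cp, cq, hm, e, by simpa using hle⟩
  choose Y hY using hY
  refine ⟨max (P0.sup id) (univ.sup Y), ?_⟩
  intro N A hA hex hfree n hn q hq hqn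
  by_contra hlt
  rw [not_le, max_lt_iff] at hlt
  obtain ⟨hlt1, hlt2⟩ := hlt
  have hmem : ∀ p : ℕ, p ∈ P0 → p ≤ P0.sup id := fun p hp => Finset.le_sup (f := id) hp
  have hnf : ¬ Few col (col q) := by
    intro hf
    have : q ∈ P0 := by
      rw [hP0, Set.Finite.mem_toFinset]
      exact Or.inl ⟨hq, hf⟩
    exact absurd (hmem q this) (not_le.2 hlt1)
  have hYq : Y (col q) < q := lt_of_le_of_lt (Finset.le_sup (f := Y) (mem_univ (col q))) hlt2
  have hne : ∃ m : ℕ, m * q ∈ A := by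
    obtain ⟨c, hc⟩ := hqn
    exact ⟨c, by rw [mul_comm, ← hc]; exact hn⟩
  set m := Nat.find hne with hmdef
  have hmA : m * q ∈ A := Nat.find_spec hne
  have hmin : ∀ j : ℕ, j * q ∈ A → m ≤ j := fun j hj => Nat.find_min' hne hj
  have hbd := Finset.mem_Icc.1 (hA hmA)
  have hm1 : 1 ≤ m := by
    rcases Nat.eq_zero_or_pos m with h0 | h0
    · rw [h0, zero_mul] at hbd
      omega
    · exact h0
  have hprime : ∀ p : ℕ, p.Prime → p ∣ m → p ∈ P0 := by
    intro p hp hpm
    rw [hP0, Set.Finite.mem_toFinset]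
    refine Or.inr ⟨hp, fun p' hp' hc => ?_⟩
    obtain ⟨c, hc'⟩ := hpm
    have hc1 : 1 ≤ c := by
      rcases Nat.eq_zero_or_pos c with h0 | h0
      · rw [h0, mul_zero] at hc'
        omega
      · exact h0
    by_contra hlt3
    rw [not_le] at hlt3
    have e1 : c * q * p = m * q := by rw [hc']; ring
    have e2 : c * q * p' ≤ N := by
      refine le_trans (Nat.mul_le_mul_left _ hlt3.le) ?_
      rw [e1]
      exact hbd.2
    have e3 := hex (c * q) p p' hp hp' hc.symm (by rw [e1]; exact hmA) e2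
    have e4 : c * p' * q ∈ A := by
      have : c * p' * q = c * q * p' := by ring
      rw [this]
      exact e3
    have e5 := hmin _ e4
    rw [hc'] at e5
    have : c * p' < p * c := by
      rw [mul_comm p c]
      exact Nat.mul_lt_mul_of_pos_left hlt3 hc1
    omega
  have hk0 : 0 < k := lt_of_lt_of_le (by norm_num) hk
  obtain ⟨D, w, hD1, hw1, hD, hDw⟩ := exists_compl hk0 P0 m hm1 hprime hP0'
  obtain ⟨p1, q1, m1, hp1, hq1, cp, cq, hm1', e, hle⟩ := hY (col q) hnf D hD1 hD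
  have hle2 : q1 ≤ q := hle.trans hYq.le
  have hle1 : p1 ≤ q := le_trans (by rw [e]; exact Nat.le_add_right _ _) hle2
  have f1 : m * p1 ∈ A := hex m q p1 hq hp1 cp.symm hmA
    (le_trans (Nat.mul_le_mul_left _ hle1) hbd.2)
  have f2 : m * q1 ∈ A := hex m q q1 hq hq1 cq.symm hmA
    (le_trans (Nat.mul_le_mul_left _ hle2) hbd.2)
  refine hfree _ f1 _ f2 (w * m1) (Nat.mul_pos hw1 hm1') ?_
  rw [e, mul_pow, ← hDw]
  ring

end Vale.Agent.P042.H757
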